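import Vale.Agent.P160.Elo

/-! Asymptotics. -/

namespace Vale.Agent.P160

open Finset Filter

theorem asym_binom {t : ℝ} (ht : 0 < t) (ht1 : t ≤ 1) {n g : ℕ} (hg : g ≤ n) :
    (∑ j ∈ range (g + 1), (n.choose j : ℝ)) * t ^ g ≤ (1 + t) ^ n := by
  have h1 : (1 + t) ^ n = ∑ j ∈ range (n + 1), (n.choose j : ℝ) * t ^ j := by
    rw [add_comm, add_pow]
    exact sum_congr rfl fun j _ => by ring
  rw [h1, sum_mul]
  calc ∑ j ∈ range (g + 1), (n.choose j : ℝ) * t ^ g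
      ≤ ∑ j ∈ range (g + 1), (n.choose j : ℝ) * t ^ j := by
        refine sum_le_sum fun j hj => mul_le_mul_of_nonneg_left ?_ (Nat.cast_nonneg _)
        exact pow_le_pow_of_le_one ht.le ht1 (Nat.lt_succ_iff.1 (mem_range.1 hj))
    _ ≤ ∑ j ∈ range (n + 1), (n.choose j : ℝ) * t ^ j := by
        refine sum_le_sum_of_subset_of_nonneg (range_mono (by omega)) fun j _ _ => ?_
        positivity

theorem asym_small {δ : ℝ} (hδ : 0 < δ) : ∃ γ : ℝ, 0 < γ ∧ ∀ n : ℕ,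
    (∑ j ∈ range (⌊γ * n⌋₊ + 1), (n.choose j : ℝ)) ^ 2 * (1 / 2) ^ (n - 2 * ⌊γ * n⌋₊) ≤
      (1 / 2 + δ) ^ n := by
  obtain ⟨t, ht, ht1, ht2⟩ : ∃ t : ℝ, 0 < t ∧ t ≤ 1 ∧ 7 * t ≤ 2 * δ :=
    ⟨min 1 (2 * δ / 7), lt_min one_pos (by positivity), min_le_left _ _, by
      have := min_le_right 1 (2 * δ / 7)
      linarith⟩
  have h3 : (1 + t) ^ 3 ≤ 1 + 2 * δ := by nlinarith [mul_pos ht ht, mul_pos ht (mul_pos ht ht)]
  obtain ⟨K0, hK0⟩ := pow_unbounded_of_one_lt (4 / t ^ 2) (show (1 : ℝ) < 1 + t by linarith)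
  set K : ℕ := K0 + 1 with hKdef
  have hK : 4 / t ^ 2 ≤ (1 + t) ^ K :=
    hK0.le.trans (pow_le_pow_right₀ (by linarith) (by omega))
  have hKpos : (0 : ℝ) < K := by positivity
  refine ⟨1 / K, by positivity, fun n => ?_⟩
  set g : ℕ := ⌊1 / (K : ℝ) * n⌋₊ with hg
  have hgK : K * g ≤ n := by
    have h1 : (g : ℝ) ≤ 1 / (K : ℝ) * n := Nat.floor_le (by positivity)
    have h2 : (K : ℝ) * g ≤ n := by
      calc (K : ℝ) * g ≤ K * (1 / (K : ℝ) * n) := mul_le_mul_of_nonneg_left h1 hKpos.le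
        _ = n := by field_simp
    exact_mod_cast h2
  have hgn : g ≤ n := by nlinarith
  have hb := asym_binom ht ht1 hgn
  set Sg : ℝ := ∑ j ∈ range (g + 1), (n.choose j : ℝ) with hSg
  have hS0 : 0 ≤ Sg := sum_nonneg fun j _ => Nat.cast_nonneg _
  have htg : 0 < t ^ g := pow_pos ht g
  have hS : Sg ≤ (1 + t) ^ n / t ^ g := by rw [le_div_iff₀ htg]; exact hb
  have h2 : (1 / 2 : ℝ) ^ (n - 2 * g) ≤ 4 ^ g * (1 / 2) ^ n := by
    have e : (4 : ℝ) ^ g * (1 / 2) ^ (2 * g) = 1 := by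
      rw [pow_mul, ← mul_pow]; norm_num
    calc (1 / 2 : ℝ) ^ (n - 2 * g) = 4 ^ g * ((1 / 2) ^ (2 * g) * (1 / 2) ^ (n - 2 * g)) := by
          rw [← mul_assoc, e, one_mul]
      _ = 4 ^ g * (1 / 2) ^ (2 * g + (n - 2 * g)) := by rw [pow_add]
      _ ≤ 4 ^ g * (1 / 2) ^ n := by
          refine mul_le_mul_of_nonneg_left ?_ (by positivity)
          exact pow_le_pow_of_le_one (by norm_num) (by norm_num) (by omega)
  have h4 : (4 / t ^ 2) ^ g ≤ (1 + t) ^ n := by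
    calc (4 / t ^ 2) ^ g ≤ ((1 + t) ^ K) ^ g := pow_le_pow_left₀ (by positivity) hK g
      _ = (1 + t) ^ (K * g) := by rw [pow_mul]
      _ ≤ (1 + t) ^ n := pow_le_pow_right₀ (by linarith) hgK
  calc Sg ^ 2 * (1 / 2 : ℝ) ^ (n - 2 * g)
      ≤ ((1 + t) ^ n / t ^ g) ^ 2 * (4 ^ g * (1 / 2) ^ n) :=
        mul_le_mul (pow_le_pow_left₀ hS0 hS 2) h2 (by positivity) (by positivity)
    _ = ((1 + t) ^ n) ^ 2 * (4 / t ^ 2) ^ g * (1 / 2) ^ n := by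
        rw [div_pow ((1 + t) ^ n), div_pow 4 (t ^ 2), ← pow_mul t g 2, ← pow_mul t 2 g, mul_comm g 2]
        ring
    _ ≤ ((1 + t) ^ n) ^ 2 * (1 + t) ^ n * (1 / 2) ^ n := by gcongr
    _ = ((1 + t) ^ 3 * (1 / 2)) ^ n := by
        rw [mul_pow, ← pow_mul (1 + t) 3 n, ← pow_mul, ← pow_add]
        congr 2
        ring
    _ ≤ (1 / 2 + δ) ^ n := pow_le_pow_left₀ (by positivity) (by linarith) n

theorem asym_big {γ ε : ℝ} (hγ : 0 < γ) (hε : 0 < ε) (hε1 : ε < 1) : ∃ θ : ℝ, θ ≤ 1 ∧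
    ∀ᶠ n : ℕ in atTop, (∀ k, ⌊γ * n⌋₊ < k → elo k ≤ θ) ∧
      4 ^ n * θ ^ (n - ⌊(1 - ε) * n⌋₊ - ⌊ε / 2 * n⌋₊) +
        4 ^ n * (1 / 2 : ℝ) ^ (⌊ε / 2 * n⌋₊ + 1).choose 2 ≤ 2 * (1 / 4) ^ n := by
  obtain ⟨K, hK⟩ := exists_nat_ge (2 / ε)
  have hK' : 2 ≤ (K : ℝ) * ε := by rwa [div_le_iff₀ hε] at hK
  set θ : ℝ := (1 / 16) ^ K with hθ
  have hθ0 : 0 < θ := by positivity
  refine ⟨θ, pow_le_one₀ (by norm_num) (by norm_num), ?_⟩
  have E1 : ∀ᶠ n : ℕ in atTop, 1 / θ ^ 2 ≤ γ * n :=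
    (tendsto_natCast_atTop_atTop.const_mul_atTop hγ).eventually_ge_atTop _
  have E2 : ∀ᶠ n : ℕ in atTop, 16 / ε + 1 ≤ ε / 2 * n :=
    (tendsto_natCast_atTop_atTop.const_mul_atTop (half_pos hε)).eventually_ge_atTop _
  filter_upwards [E1, E2] with n h1 h2
  have h16 : (4 : ℝ) ^ n * (1 / 16) ^ n = (1 / 4) ^ n := by rw [← mul_pow]; norm_num
  have hn0 : (0 : ℝ) ≤ n := Nat.cast_nonneg n
  refine ⟨fun k hk => ?_, ?_⟩
  · have h3 : γ * n < k := (Nat.floor_lt (by positivity)).1 hk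
    have h4 : 1 / θ ^ 2 ≤ k := by linarith
    have h5 : 1 ≤ θ ^ 2 * k := by
      rw [div_le_iff₀ (by positivity)] at h4
      linarith
    have hk0 : (0 : ℝ) < k := lt_of_le_of_lt (by positivity) h3
    have h6 : elo k ^ 2 ≤ θ ^ 2 := le_of_mul_le_mul_right ((elo_sq k).trans h5) hk0
    exact (pow_le_pow_iff_left₀ (elo_nonneg k) hθ0.le two_ne_zero).1 h6
  · set a : ℕ := ⌊(1 - ε) * n⌋₊ with ha
    set r : ℕ := ⌊ε / 2 * n⌋₊ with hr
    have ha1 : (a : ℝ) ≤ (1 - ε) * n := Nat.floor_le (mul_nonneg (by linarith) hn0)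
    have hr1 : (r : ℝ) ≤ ε / 2 * n := Nat.floor_le (by positivity)
    have hr2 : ε / 2 * n < (r : ℝ) + 1 := Nat.lt_floor_add_one _
    have he : ε / 2 * n ≤ ((n - a - r : ℕ) : ℝ) := by
      have h3 : n ≤ (n - a - r) + a + r := by omega
      have h4 : (n : ℝ) ≤ ((n - a - r : ℕ) : ℝ) + a + r := by exact_mod_cast h3
      linarith
    have hKe : n ≤ K * (n - a - r) := by
      have h3 : (n : ℝ) ≤ K * ((n - a - r : ℕ) : ℝ) := by
        have h4 : (K : ℝ) * (ε / 2 * n) ≤ K * ((n - a - r : ℕ) : ℝ) :=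
          mul_le_mul_of_nonneg_left he (Nat.cast_nonneg K)
        nlinarith
      exact_mod_cast h3
    have A1 : θ ^ (n - a - r) ≤ (1 / 16) ^ n := by
      rw [hθ, ← pow_mul]
      exact pow_le_pow_of_le_one (by norm_num) (by norm_num) hKe
    have hch : 4 * n ≤ (r + 1).choose 2 := by
      have h3 : (((r + 1).choose 2 : ℕ) : ℝ) = ((r : ℝ) + 1) * r / 2 := by
        rw [Nat.cast_choose_two]
        push_cast
        ring
      have h4 : 16 / ε ≤ r := by linarith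
      have h5 : 16 ≤ (r : ℝ) * ε := by rwa [div_le_iff₀ hε] at h4
      have h6 : ε / 2 * n * r ≤ ((r : ℝ) + 1) * r :=
        mul_le_mul_of_nonneg_right hr2.le (Nat.cast_nonneg r)
      have h7 : (4 : ℝ) * n ≤ (((r + 1).choose 2 : ℕ) : ℝ) := by
        rw [h3]
        nlinarith
      exact_mod_cast h7
    have A2 : (1 / 2 : ℝ) ^ (r + 1).choose 2 ≤ (1 / 16) ^ n := by
      calc (1 / 2 : ℝ) ^ (r + 1).choose 2 ≤ (1 / 2) ^ (4 * n) :=
            pow_le_pow_of_le_one (by norm_num) (by norm_num) hch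
        _ = (1 / 16) ^ n := by rw [pow_mul]; norm_num
    have h4n : (0 : ℝ) ≤ 4 ^ n := by positivity
    have B1 := mul_le_mul_of_nonneg_left A1 h4n
    have B2 := mul_le_mul_of_nonneg_left A2 h4n
    linarith

end Vale.Agent.P160
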