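import Vale.Agent.P160.Elo

/-! Asymptotics for few values on a large set. -/

namespace Vale.Agent.P160

open Finset Filter

theorem asym_few2 {ε : ℝ} (hε : 0 < ε) (hε1 : ε < 1 / 2) : ∀ᶠ n : ℕ in atTop,
    ((⌊ε ^ 2 / 4 * n⌋₊ + (n - ⌈ε * n⌉₊ + ⌊(n : ℝ) ^ (1 / 2 - ε)⌋₊) : ℕ) : ℝ) ≤ (1 - ε / 2) * n ∧
    (⌊(n : ℝ) ^ (1 / 2 - ε)⌋₊ : ℝ) ^ ⌈ε * n⌉₊ * 8 ^ n *
      elo ⌊ε ^ 2 / 4 * n⌋₊ ^ (⌈ε * n⌉₊ - ⌊(n : ℝ) ^ (1 / 2 - ε)⌋₊ - ⌊ε ^ 2 / 4 * n⌋₊) ≤
      (1 / 4) ^ n := by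
  have hn : Tendsto (fun n : ℕ => (n : ℝ)) atTop atTop := tendsto_natCast_atTop_atTop
  have hε2 : 0 < ε ^ 2 := by positivity
  have eA := hn.eventually_ge_atTop (8 / ε ^ 2)
  have eB : ∀ᶠ n : ℕ in atTop, (n : ℝ) ^ (-(1 / 2 + ε)) ≤ ε ^ 2 / 4 :=
    ((tendsto_rpow_neg_atTop (by linarith : 0 < 1 / 2 + ε)).comp hn).eventually_le_const
      (by positivity)
  have eD := (Real.tendsto_log_atTop.comp hn).eventually_ge_atTop
    ((Real.log (8 / ε ^ 2) / 2 + Real.log 32 / ε) / (3 * ε / 4))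
  filter_upwards [eA, eB, eD] with n hA hB hD
  have h8 : (1 : ℝ) ≤ 8 / ε ^ 2 := by
    rw [le_div_iff₀ hε2]; nlinarith
  have hx1 : (1 : ℝ) ≤ n := h8.trans hA
  have hx0 : (0 : ℝ) < n := by linarith
  have hA' : 8 ≤ ε ^ 2 * n := by
    rw [div_le_iff₀ hε2] at hA; linarith
  obtain ⟨g, hg⟩ : ∃ g, g = ⌈ε * n⌉₊ := ⟨_, rfl⟩
  obtain ⟨m, hm⟩ : ∃ m, m = ⌊(n : ℝ) ^ (1 / 2 - ε)⌋₊ := ⟨_, rfl⟩
  obtain ⟨t, ht⟩ : ∃ t, t = ⌊ε ^ 2 / 4 * n⌋₊ := ⟨_, rfl⟩
  rw [← hg, ← hm, ← ht]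
  have hg1 : ε * n ≤ g := hg ▸ Nat.le_ceil _
  have hg2 : g ≤ n := hg ▸ Nat.ceil_le.2 (by nlinarith)
  have hm1 : (m : ℝ) ≤ (n : ℝ) ^ (1 / 2 - ε) := hm ▸ Nat.floor_le (by positivity)
  have hm2 : (n : ℝ) ^ (1 / 2 - ε) ≤ ε ^ 2 / 4 * n := by
    have : (n : ℝ) ^ (1 / 2 - ε) = (n : ℝ) ^ (-(1 / 2 + ε)) * n := by
      rw [← Real.rpow_add_one hx0.ne']; congr 1; ring
    rw [this]
    exact mul_le_mul_of_nonneg_right hB hx0.le
  have ht1 : (t : ℝ) ≤ ε ^ 2 / 4 * n := ht ▸ Nat.floor_le (by positivity)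
  have ht2 : ε ^ 2 * n / 8 ≤ t := by
    have := Nat.lt_floor_add_one (ε ^ 2 / 4 * n)
    rw [← ht] at this
    linarith
  refine ⟨?_, ?_⟩
  · push_cast [Nat.cast_sub hg2]
    have : ε ^ 2 * n ≤ ε * n := mul_le_mul_of_nonneg_right (by nlinarith) hx0.le
    linarith
  · set L := Real.log n with hL
    set c := Real.log (8 / ε ^ 2) with hc
    have hc0 : 0 ≤ c := Real.log_nonneg h8
    have hcL : c ≤ L := Real.log_le_log (by positivity) hA
    have hmt : (m : ℝ) + t ≤ ε / 2 * g := by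
      have : ε * (ε * n) ≤ ε * g := mul_le_mul_of_nonneg_left hg1 hε.le
      nlinarith
    have hg0 : (0 : ℝ) ≤ g := Nat.cast_nonneg _
    have hmt' : m + t ≤ g := by
      have : (m : ℝ) + t ≤ g := by nlinarith
      exact_mod_cast this
    have he : (1 - ε / 2) * g ≤ ((g - m - t : ℕ) : ℝ) := by
      rw [Nat.sub_sub, Nat.cast_sub hmt']
      push_cast
      linarith
    have helo : elo t ≤ Real.exp ((c - L) / 2) := by
      have h1 := elo_sq t
      have h2 : Real.exp ((c - L) / 2) ^ 2 = 8 / ε ^ 2 / n := by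
        rw [← Real.exp_nat_mul]
        have : ((2 : ℕ) : ℝ) * ((c - L) / 2) = c - L := by push_cast; ring
        rw [this, Real.exp_sub, hc, hL, Real.exp_log (by positivity), Real.exp_log hx0]
      have h3 : elo t ^ 2 ≤ Real.exp ((c - L) / 2) ^ 2 := by
        rw [h2, div_div, le_div_iff₀ (by positivity)]
        have := mul_le_mul_of_nonneg_left ht2 (sq_nonneg (elo t))
        nlinarith
      exact (pow_le_pow_iff_left₀ (elo_nonneg t) (Real.exp_pos _).le two_ne_zero).1 h3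
    have h1 : elo t ^ (g - m - t) ≤ Real.exp ((1 - ε / 2) * g * ((c - L) / 2)) := by
      refine (pow_le_pow_left₀ (elo_nonneg t) helo _).trans ?_
      rw [← Real.exp_nat_mul]
      refine Real.exp_le_exp.2 ?_
      exact mul_le_mul_of_nonpos_right he (by linarith)
    have h2 : (m : ℝ) ^ g ≤ Real.exp (g * ((1 / 2 - ε) * L)) := by
      refine (pow_le_pow_left₀ (Nat.cast_nonneg _) hm1 _).trans (le_of_eq ?_)
      rw [Real.exp_nat_mul, Real.rpow_def_of_pos hx0, mul_comm]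
    have h3 : (8 : ℝ) ^ n = Real.exp (n * Real.log 8) := by
      rw [Real.exp_nat_mul, Real.exp_log (by norm_num)]
    have h4 : (1 / 4 : ℝ) ^ n = Real.exp (n * (Real.log 8 - Real.log 32)) := by
      rw [Real.exp_nat_mul, Real.exp_sub, Real.exp_log (by norm_num), Real.exp_log (by norm_num)]
      norm_num
    have h32 : 0 ≤ Real.log 32 := Real.log_nonneg (by norm_num)
    have hD' : c / 2 + Real.log 32 / ε ≤ L * (3 * ε / 4) := by
      have h5 : (c / 2 + Real.log 32 / ε) / (3 * ε / 4) ≤ L := hD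
      rwa [div_le_iff₀ (by positivity)] at h5
    have h6 : n * Real.log 32 ≤ g * (Real.log 32 / ε) := by
      rw [← mul_div_assoc, le_div_iff₀ hε]
      have := mul_le_mul_of_nonneg_right hg1 h32
      linarith
    have h7 : g * (Real.log 32 / ε) ≤ g * (L * (3 * ε / 4) - c / 2) :=
      mul_le_mul_of_nonneg_left (by linarith) hg0
    have h9 : 0 ≤ ε * g * c := mul_nonneg (mul_nonneg hε.le hg0) hc0
    calc (m : ℝ) ^ g * 8 ^ n * elo t ^ (g - m - t)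
        ≤ Real.exp (g * ((1 / 2 - ε) * L)) * Real.exp (n * Real.log 8) *
          Real.exp ((1 - ε / 2) * g * ((c - L) / 2)) := by
          rw [h3]
          exact mul_le_mul (mul_le_mul_of_nonneg_right h2 (Real.exp_pos _).le) h1
            (pow_nonneg (elo_nonneg t) _) (mul_pos (Real.exp_pos _) (Real.exp_pos _)).le
      _ ≤ (1 / 4) ^ n := by
          rw [h4, ← Real.exp_add, ← Real.exp_add]
          refine Real.exp_le_exp.2 ?_
          have e1 : (g : ℝ) * ((1 / 2 - ε) * L) + (1 - ε / 2) * g * ((c - L) / 2) =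
              -(g * (L * (3 * ε / 4) - c / 2)) - ε * g * c / 4 := by ring
          have e2 : (n : ℝ) * (Real.log 8 - Real.log 32) = n * Real.log 8 - n * Real.log 32 := by
            ring
          linarith

end Vale.Agent.P160
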