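import Vale.Agent.P160.Elo

/-! Asymptotics for few values. -/

namespace Vale.Agent.P160

open Finset Filter

theorem asym_few {ε : ℝ} (hε : 0 < ε) (hε1 : ε < 1 / 2) : ∀ᶠ n : ℕ in atTop,
    ((⌊ε / 2 * n⌋₊ + ⌊(n : ℝ) ^ (1 / 2 - ε)⌋₊ : ℕ) : ℝ) ≤ (1 - ε) * n ∧
    (⌊(n : ℝ) ^ (1 / 2 - ε)⌋₊ : ℝ) ^ n * 4 ^ n *
      elo ⌊ε / 2 * n⌋₊ ^ (n - ⌊ε / 2 * n⌋₊ - ⌊(n : ℝ) ^ (1 / 2 - ε)⌋₊) ≤ (1 / 4) ^ n := by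
  sorry

end Vale.Agent.P160
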