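import Vale.Agent.P160.Defs

/-! Basic facts. -/

namespace Vale.Agent.P160

open Finset

/-- the Erdős–Littlewood–Offord bound -/
noncomputable def elo (k : ℕ) : ℝ := (k.choose (k / 2) : ℝ) / 2 ^ k

theorem elo_nonneg (k : ℕ) : 0 ≤ elo k := by unfold elo; positivity

theorem prob_nonneg {n : ℕ} (E : Matrix (Fin n) (Fin n) ℝ → Prop) : 0 ≤ prob n E := by
  unfold prob; positivity

theorem prob_mono {n : ℕ} {E F : Matrix (Fin n) (Fin n) ℝ → Prop}
    (h : ∀ ω, E (mat ω) → F (mat ω)) : prob n E ≤ prob n F := by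
  classical
  unfold prob
  refine div_le_div_of_nonneg_right (Nat.cast_le.2 (card_le_card fun ω hω => ?_))
    (Nat.cast_nonneg _)
  simp only [mem_filter, mem_univ, true_and] at hω ⊢
  exact h ω hω

theorem prob_or {n : ℕ} (E F : Matrix (Fin n) (Fin n) ℝ → Prop) :
    prob n (fun A => E A ∨ F A) ≤ prob n E + prob n F := by
  classical
  unfold prob
  rw [← add_div]
  refine div_le_div_of_nonneg_right ?_ (Nat.cast_nonneg _)
  rw [← Nat.cast_add]
  refine Nat.cast_le.2 (le_trans (card_le_card fun ω hω => ?_) (card_union_le _ _))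
  simp only [mem_filter, mem_univ, true_and, mem_union] at hω ⊢
  exact hω

theorem prob_exists {n : ℕ} {ι : Type*} (s : Finset ι)
    (E : ι → Matrix (Fin n) (Fin n) ℝ → Prop) :
    prob n (fun A => ∃ a ∈ s, E a A) ≤ ∑ a ∈ s, prob n (E a) := by
  classical
  induction s using Finset.induction_on with
  | empty => simp [prob]
  | insert a s ha ih =>
    rw [sum_insert ha]
    refine le_trans (prob_mono (F := fun A => E a A ∨ ∃ b ∈ s, E b A) fun ω h => ?_)
      ((prob_or _ _).trans (add_le_add le_rfl ih))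
    simpa using h

end Vale.Agent.P160
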