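import Vale.Agent.P160.Elo

/-! Independent blocks. -/

namespace Vale.Agent.P160

open Finset

/-- flip the signs at the pairs `{i, j}`, `j ∈ η` -/
def Block_fl {n : ℕ} (i : Fin n) (η : Finset (Fin n)) (ω : Sym2 (Fin n) → Bool) :
    Sym2 (Fin n) → Bool := fun e => xor (ω e) (decide (∃ j ∈ η, e = s(i, j)))

theorem Block_invol {n : ℕ} (i : Fin n) (η : Finset (Fin n)) :
    Function.Involutive (Block_fl i η) := by
  intro ω
  funext e
  simp [Block_fl]

theorem Block_off {n : ℕ} {i : Fin n} {η : Finset (Fin n)} (ω : Sym2 (Fin n) → Bool)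
    {e : Sym2 (Fin n)} (h : ¬ ∃ j ∈ η, e = s(i, j)) : Block_fl i η ω e = ω e := by
  unfold Block_fl
  rw [decide_eq_false h, Bool.xor_false]

theorem Block_row {n : ℕ} (i : Fin n) (η : Finset (Fin n)) (ω : Sym2 (Fin n) → Bool) (j : Fin n) :
    mat (Block_fl i η ω) i j = mat ω i j - 2 * (if j ∈ η then mat ω i j else 0) := by
  by_cases hj : j ∈ η
  · have h : ∃ j' ∈ η, s(i, j) = s(i, j') := ⟨j, hj, rfl⟩
    unfold mat Block_fl
    rw [decide_eq_true h, if_pos hj]
    cases ω s(i, j) <;> norm_num
  · have h : ¬ ∃ j' ∈ η, s(i, j) = s(i, j') := by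
      rintro ⟨j', hj', h⟩
      exact hj (Sym2.congr_right.1 h ▸ hj')
    unfold mat
    rw [Block_off ω h, if_neg hj]
    ring

open Classical in
theorem block {n : ℕ} (R T : Finset (Fin n)) (hRT : Disjoint R T)
    (F : (Sym2 (Fin n) → Bool) → Fin n → ℝ)
    (hF : ∀ ω ω', (∀ e, (¬ ∃ i ∈ R, ∃ j ∈ T, e = s(i, j)) → ω e = ω' e) → F ω = F ω') :
    ((univ.filter fun ω : Sym2 (Fin n) → Bool => (∀ j ∈ T, F ω j ≠ 0) ∧
      ∀ i ∈ R, ∑ j, mat ω i j * F ω j = 0).card : ℝ) ≤
      elo T.card ^ R.card * (Fintype.card (Sym2 (Fin n) → Bool) : ℝ) := by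
  induction R using Finset.induction_on with
  | empty =>
    rw [card_empty, pow_zero, one_mul]
    exact_mod_cast card_le_univ _
  | insert i R hi ih =>
    have hd : Disjoint R T := hRT.mono_left (subset_insert _ _)
    have ih' := ih hd fun ω ω' h => hF ω ω' fun e he => h e fun ⟨a, ha, b⟩ =>
      he ⟨a, mem_insert_of_mem ha, b⟩
    set A := univ.filter fun ω : Sym2 (Fin n) → Bool => (∀ j ∈ T, F ω j ≠ 0) ∧
      ∀ i' ∈ insert i R, ∑ j, mat ω i' j * F ω j = 0 with hA
    set B := univ.filter fun ω : Sym2 (Fin n) → Bool => (∀ j ∈ T, F ω j ≠ 0) ∧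
      ∀ i' ∈ R, ∑ j, mat ω i' j * F ω j = 0 with hB
    have hFf : ∀ η ⊆ T, ∀ ω, F (Block_fl i η ω) = F ω := by
      intro η hη ω
      refine hF _ _ fun e he => Block_off ω ?_
      rintro ⟨j, hj, h⟩
      exact he ⟨i, mem_insert_self _ _, j, hη hj, h⟩
    have hrow : ∀ η ⊆ T, ∀ ω, ∀ i' ∈ R, ∀ j, mat (Block_fl i η ω) i' j = mat ω i' j := by
      intro η hη ω i' hi' j
      unfold mat
      rw [Block_off ω]
      rintro ⟨j', hj', h⟩
      rcases Sym2.eq_iff.1 h with ⟨h1, _⟩ | ⟨h1, _⟩
      · exact hi (h1 ▸ hi')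
      · exact disjoint_left.1 hd hi' (h1 ▸ hη hj')
    have h1 : ∀ η ∈ T.powerset, (univ.filter fun ω => Block_fl i η ω ∈ A).card = A.card := by
      intro η _
      refine card_bij (fun ω _ => Block_fl i η ω) (fun ω h => (mem_filter.1 h).2)
        (fun a _ b _ h => (Block_invol i η).injective h) fun b hb =>
          ⟨Block_fl i η b, mem_filter.2 ⟨mem_univ _, by rw [Block_invol i η b]; exact hb⟩,
            Block_invol i η b⟩
    have h2 : ∀ ω, (T.powerset.filter fun η => Block_fl i η ω ∈ A).card ≤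
        if ω ∈ B then T.card.choose (T.card / 2) else 0 := by
      intro ω
      split_ifs with hω
      · refine le_trans (card_le_card ?_) (elo_subsets T (fun j => mat ω i j * F ω j) ?_
          ((∑ j, mat ω i j * F ω j) / 2))
        · intro η hη
          obtain ⟨h3, h4⟩ := mem_filter.1 hη
          refine mem_filter.2 ⟨h3, ?_⟩
          have h5 := (mem_filter.1 h4).2.2 i (mem_insert_self _ _)
          rw [hFf η (mem_powerset.1 h3)] at h5
          simp only [Block_row, sub_mul, sum_sub_distrib, mul_assoc, ← mul_sum, ite_mul, zero_mul,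
            sum_ite_mem, univ_inter] at h5
          linarith
        · intro j hj
          refine mul_ne_zero ?_ ((mem_filter.1 hω).2.1 j hj)
          unfold mat
          split_ifs <;> norm_num
      · rw [Nat.le_zero, card_eq_zero, filter_eq_empty_iff]
        intro η hη h4
        apply hω
        have h5 := (mem_filter.1 h4).2
        rw [hFf η (mem_powerset.1 hη)] at h5
        refine mem_filter.2 ⟨mem_univ _, h5.1, fun i' hi' => ?_⟩
        have h6 := h5.2 i' (mem_insert_of_mem hi')
        simpa only [hrow η (mem_powerset.1 hη) ω i' hi'] using h6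
    have h3 : 2 ^ T.card * A.card ≤ T.card.choose (T.card / 2) * B.card := by
      calc 2 ^ T.card * A.card = ∑ η ∈ T.powerset, A.card := by
            rw [sum_const, card_powerset, smul_eq_mul]
        _ = ∑ η ∈ T.powerset, (univ.filter fun ω => Block_fl i η ω ∈ A).card :=
            (sum_congr rfl h1).symm
        _ = ∑ ω, (T.powerset.filter fun η => Block_fl i η ω ∈ A).card := by
            simp only [card_filter]
            exact sum_comm
        _ ≤ ∑ ω, if ω ∈ B then T.card.choose (T.card / 2) else 0 := sum_le_sum fun ω _ => h2 ω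
        _ = T.card.choose (T.card / 2) * B.card := by
            rw [sum_ite_mem, univ_inter, sum_const, smul_eq_mul, mul_comm]
    have h4 : (A.card : ℝ) ≤ elo T.card * B.card := by
      unfold elo
      rw [div_mul_eq_mul_div, le_div_iff₀ (by positivity), mul_comm]
      exact_mod_cast h3
    rw [card_insert_of_notMem hi, pow_succ', mul_assoc]
    exact h4.trans (mul_le_mul_of_nonneg_left ih' (elo_nonneg _))

end Vale.Agent.P160
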