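import Vale.Agent.P160.Base

/-! Principal submatrices of large corank. -/

namespace Vale.Agent.P160

open Finset

theorem Corank_entry {n : ℕ} (S I : Finset (Fin n)) (ω ω' : Sym2 (Fin n) → Bool)
    (h : ∀ e, e ∉ I.sym2 → ω e = ω' e) {a b : Fin n} (ha : a ∈ I) (hb : b ∈ I)
    {x y : Fin n → ℝ} (hx0 : ∀ j, j ∉ S → x j = 0) (hx1 : ∀ c ∈ I, x c = if c = a then 1 else 0)
    (hx2 : ∀ i ∈ S, ∑ j, mat ω i j * x j = 0) (hy0 : ∀ j, j ∉ S → y j = 0)
    (hy1 : ∀ c ∈ I, y c = if c = b then 1 else 0) (hy2 : ∀ i ∈ S, ∑ j, mat ω' i j * y j = 0) :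
    ω s(b, a) = ω' s(b, a) := by
  have e1 : ∑ i, ∑ j, y i * (mat ω i j * x j) = 0 := by
    refine sum_eq_zero fun i _ => ?_
    rw [← mul_sum]
    by_cases hi : i ∈ S
    · rw [hx2 i hi, mul_zero]
    · rw [hy0 i hi, zero_mul]
  have e2 : ∑ i, ∑ j, y i * (mat ω' i j * x j) = 0 := by
    rw [sum_comm]
    refine sum_eq_zero fun j _ => ?_
    have : ∑ i, y i * (mat ω' i j * x j) = x j * ∑ i, mat ω' j i * y i := by
      rw [mul_sum]
      refine sum_congr rfl fun i _ => ?_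
      have : mat ω' i j = mat ω' j i := by unfold mat; rw [Sym2.eq_swap]
      rw [this]; ring
    rw [this]
    by_cases hj : j ∈ S
    · rw [hy2 j hj, mul_zero]
    · rw [hx0 j hj, zero_mul]
  have key : ∀ i j, (i ≠ b ∨ j ≠ a) → y i * (mat ω i j * x j) - y i * (mat ω' i j * x j) = 0 := by
    intro i j hij
    by_cases hm : s(i, j) ∈ I.sym2
    · rw [mk_mem_sym2_iff] at hm
      rcases hij with hi | hj
      · rw [hy1 i hm.1, if_neg hi]; ring
      · rw [hx1 j hm.2, if_neg hj]; ring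
    · unfold mat
      rw [h _ hm, sub_self]
  have e3 : ∑ i, ∑ j, (y i * (mat ω i j * x j) - y i * (mat ω' i j * x j)) = 0 := by
    simp only [sum_sub_distrib]
    rw [e1, e2, sub_self]
  rw [sum_eq_single b (fun i _ hi => sum_eq_zero fun j _ => key i j (Or.inl hi)) (by simp),
    sum_eq_single a (fun j _ hj => key b j (Or.inr hj)) (by simp), hy1 b hb, hx1 a ha, if_pos rfl,
    if_pos rfl] at e3
  unfold mat at e3
  cases h1 : ω s(b, a) <;> cases h2 : ω' s(b, a) <;> simp [h1, h2] at e3 ⊢ <;> norm_num at e3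

theorem corank {n : ℕ} (S I : Finset (Fin n)) :
    prob n (fun A => ∀ a ∈ I, ∃ x : Fin n → ℝ, (∀ j, j ∉ S → x j = 0) ∧
      (∀ b ∈ I, x b = if b = a then 1 else 0) ∧ ∀ i ∈ S, ∑ j, A i j * x j = 0) ≤
      (1 / 2) ^ (I.card + 1).choose 2 := by
  classical
  unfold prob
  have hk : I.sym2.card ≤ Fintype.card (Sym2 (Fin n)) := card_le_univ _
  have hc : (univ.filter fun ω : Sym2 (Fin n) → Bool => ∀ a ∈ I, ∃ x : Fin n → ℝ,
      (∀ j, j ∉ S → x j = 0) ∧ (∀ b ∈ I, x b = if b = a then 1 else 0) ∧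
        ∀ i ∈ S, ∑ j, mat ω i j * x j = 0).card ≤
      (univ : Finset ({e // e ∈ I.sym2ᶜ} → Bool)).card := by
    refine card_le_card_of_injOn (fun ω e => ω e.1) (fun _ _ => mem_coe.2 (mem_univ _)) ?_
    intro ω hω ω' hω' hh
    have h1 := (mem_filter.1 (mem_coe.1 hω)).2
    have h2 := (mem_filter.1 (mem_coe.1 hω')).2
    have h : ∀ e, e ∉ I.sym2 → ω e = ω' e := fun e he => congrFun hh ⟨e, mem_compl.2 he⟩
    funext e
    by_cases he : e ∈ I.sym2
    · induction e using Sym2.ind with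
      | h b a =>
        rw [mk_mem_sym2_iff] at he
        obtain ⟨x, hx0, hx1, hx2⟩ := h1 a he.2
        obtain ⟨y, hy0, hy1, hy2⟩ := h2 b he.1
        exact Corank_entry S I ω ω' h he.2 he.1 hx0 hx1 hx2 hy0 hy1 hy2
    · exact h e he
  rw [card_univ, Fintype.card_fun, Fintype.card_bool, Fintype.card_coe, card_compl] at hc
  rw [← card_sym2, Fintype.card_fun, Fintype.card_bool, div_le_iff₀ (by positivity)]
  obtain ⟨m, hm⟩ := Nat.exists_eq_add_of_le hk
  rw [hm, Nat.add_sub_cancel_left] at hc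
  refine le_trans (Nat.cast_le.2 (le_trans (le_of_eq (by congr)) hc)) (le_of_eq ?_)
  rw [hm]
  push_cast
  rw [pow_add, ← mul_assoc, ← mul_pow]
  norm_num

end Vale.Agent.P160
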