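import Mathlib

/-! Statement-level definitions for P160: random symmetric sign matrices. -/

namespace Vale.Agent.P160

open Finset

/-- The symmetric `±1` matrix whose entry at the unordered pair `{i, j}` is given by `ω`. -/
def mat {n : ℕ} (ω : Sym2 (Fin n) → Bool) : Matrix (Fin n) (Fin n) ℝ :=
  fun i j => if ω s(i, j) then 1 else -1

open Classical in
/-- The probability that the random symmetric sign matrix `A_n` has property `E`
(the signs on and above the diagonal are independent and uniform). -/
noncomputable def prob (n : ℕ) (E : Matrix (Fin n) (Fin n) ℝ → Prop) : ℝ :=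
  ((univ.filter fun ω : Sym2 (Fin n) → Bool => E (mat ω)).card : ℝ) /
    (Fintype.card (Sym2 (Fin n) → Bool) : ℝ)

end Vale.Agent.P160
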