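import Vale.Agent.P160.Base

/-! Erdős–Littlewood–Offord. -/

namespace Vale.Agent.P160

open Finset

open Classical in
theorem Elo_univ {α : Type*} [Fintype α] (v : α → ℝ) (hv : ∀ j, v j ≠ 0) (c : ℝ) :
    (univ.filter fun η : Finset α => ∑ j ∈ η, v j = c).card
      ≤ (Fintype.card α).choose (Fintype.card α / 2) := by
  let φ : Finset α → Finset α := fun η => univ.filter fun j => (j ∈ η ↔ 0 < v j)
  have key : ∀ η η' : Finset α, ∑ j ∈ η, v j = ∑ j ∈ η', v j → φ η ⊆ φ η' → η = η' := by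
    intro η η' hs hsub
    have h1 : ∀ j, (j ∈ η ↔ 0 < v j) → (j ∈ η' ↔ 0 < v j) := fun j hj =>
      (mem_filter.1 (hsub (mem_filter.2 ⟨mem_univ j, hj⟩))).2
    have hle : ∀ j ∈ (univ : Finset α),
        (if j ∈ η then v j else 0) ≤ (if j ∈ η' then v j else 0) := by
      intro j _
      have h2 := h1 j
      rcases lt_or_gt_of_ne (hv j) with h3 | h3
      · have h4 : ¬ 0 < v j := not_lt.2 h3.le
        by_cases a : j ∈ η
        · rw [if_pos a]
          split_ifs
          · exact le_rfl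
          · exact h3.le
        · have b : j ∉ η' := fun b => h4 ((h2 (iff_of_false a h4)).1 b)
          rw [if_neg a, if_neg b]
      · by_cases a : j ∈ η
        · have b : j ∈ η' := (h2 (iff_of_true a h3)).2 h3
          rw [if_pos a, if_pos b]
        · rw [if_neg a]
          split_ifs
          · exact h3.le
          · exact le_rfl
    have heq : ∑ j, (if j ∈ η then v j else 0) = ∑ j, (if j ∈ η' then v j else 0) := by
      simpa [sum_ite_mem] using hs
    have h5 := (sum_eq_sum_iff_of_le hle).1 heq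
    ext j
    have h6 := h5 j (mem_univ j)
    have h7 := hv j
    by_cases a : j ∈ η <;> by_cases b : j ∈ η'
    · exact iff_of_true a b
    · rw [if_pos a, if_neg b] at h6
      exact absurd h6 h7
    · rw [if_neg a, if_pos b] at h6
      exact absurd h6.symm h7
    · exact iff_of_false a b
  have hinj : Set.InjOn φ (univ.filter fun η : Finset α => ∑ j ∈ η, v j = c) := by
    intro η hη η' hη' h
    exact key η η' ((mem_filter.1 hη).2.trans (mem_filter.1 hη').2.symm) h.le
  rw [← card_image_of_injOn hinj]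
  apply IsAntichain.sperner
  intro a ha b hb hne hsub
  obtain ⟨η, hη, rfl⟩ := mem_image.1 (mem_coe.1 ha)
  obtain ⟨η', hη', rfl⟩ := mem_image.1 (mem_coe.1 hb)
  exact hne (by rw [key η η' ((mem_filter.1 hη).2.trans (mem_filter.1 hη').2.symm) hsub])

open Classical in
theorem elo_subsets {ι : Type*} (T : Finset ι) (w : ι → ℝ) (hw : ∀ j ∈ T, w j ≠ 0) (c : ℝ) :
    (T.powerset.filter fun η => ∑ j ∈ η, w j = c).card ≤ T.card.choose (T.card / 2) := by
  have h := Elo_univ (α := {j // j ∈ T}) (fun j => w j) (fun j => hw j j.2) c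
  rw [Fintype.card_coe] at h
  refine le_trans (card_le_card_of_injOn (fun η => η.subtype (· ∈ T)) ?_ ?_) h
  · intro η hη
    obtain ⟨h1, h2⟩ := mem_filter.1 (mem_coe.1 hη)
    refine mem_coe.2 (mem_filter.2 ⟨mem_univ _, ?_⟩)
    rw [sum_subtype_of_mem w fun x hx => mem_powerset.1 h1 hx]
    exact h2
  · intro η hη η' hη' h3
    have h1 := mem_powerset.1 (mem_filter.1 (mem_coe.1 hη)).1
    have h2 := mem_powerset.1 (mem_filter.1 (mem_coe.1 hη')).1
    ext j
    constructor
    · intro hj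
      have : (⟨j, h1 hj⟩ : {j // j ∈ T}) ∈ η.subtype (· ∈ T) := mem_subtype.2 hj
      have h4 : η.subtype (· ∈ T) = η'.subtype (· ∈ T) := h3
      rw [h4] at this
      exact mem_subtype.1 this
    · intro hj
      have : (⟨j, h2 hj⟩ : {j // j ∈ T}) ∈ η'.subtype (· ∈ T) := mem_subtype.2 hj
      have h4 : η.subtype (· ∈ T) = η'.subtype (· ∈ T) := h3
      rw [← h4] at this
      exact mem_subtype.1 this

theorem Elo_central (m : ℕ) : (m.centralBinom : ℝ) ^ 2 * (2 * m + 1) ≤ 16 ^ m := by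
  induction m with
  | zero => simp
  | succ m ih =>
    have h1 : ((m : ℝ) + 1) * ((m + 1).centralBinom : ℝ) = 2 * (2 * m + 1) * m.centralBinom := by
      exact_mod_cast Nat.succ_mul_centralBinom_succ m
    have h2 : (0 : ℝ) < ((m : ℝ) + 1) ^ 2 := by positivity
    refine le_of_mul_le_mul_left ?_ h2
    have h3 : ((m : ℝ) + 1) ^ 2 * (((m + 1).centralBinom : ℝ) ^ 2 * (2 * ((m + 1 : ℕ) : ℝ) + 1))
        = (4 * (2 * m + 1) * (2 * m + 3)) * ((m.centralBinom : ℝ) ^ 2 * (2 * m + 1)) := by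
      push_cast
      have : ((m : ℝ) + 1) ^ 2 * ((m + 1).centralBinom : ℝ) ^ 2
          = (2 * (2 * m + 1) * m.centralBinom) ^ 2 := by rw [← h1]; ring
      rw [← mul_assoc, this]
      ring
    rw [h3, pow_succ (16 : ℝ)]
    have h4 : (0 : ℝ) ≤ 4 * (2 * m + 1) * (2 * m + 3) := by positivity
    have h5 := mul_le_mul_of_nonneg_left ih h4
    have h6 : (0 : ℝ) < 16 ^ m := by positivity
    nlinarith

theorem Elo_sq (k : ℕ) : elo k ^ 2 * k ≤ 1 := by
  have h16 : ∀ m : ℕ, ((2 : ℝ) ^ (2 * m)) ^ 2 = 16 ^ m := by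
    intro m
    rw [← pow_mul, show (16 : ℝ) = 2 ^ 4 by norm_num, ← pow_mul]
    congr 1
    ring
  unfold elo
  rcases Nat.even_or_odd' k with ⟨m, rfl | rfl⟩
  · have h1 : 2 * m / 2 = m := by omega
    rw [h1, ← Nat.centralBinom_eq_two_mul_choose, div_pow, h16, div_mul_eq_mul_div,
      div_le_one (by positivity)]
    have := Elo_central m
    push_cast
    nlinarith [sq_nonneg (m.centralBinom : ℝ)]
  · have h1 : (2 * m + 1) / 2 = m := by omega
    have h2 : (m + 1).centralBinom = 2 * (2 * m + 1).choose m := by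
      rw [Nat.centralBinom_eq_two_mul_choose, show 2 * (m + 1) = (2 * m + 1) + 1 by ring,
        Nat.choose_succ_succ, Nat.succ_eq_add_one, Nat.choose_symm_half]
      ring
    have h3 := Elo_central (m + 1)
    rw [h2, pow_succ (16 : ℝ)] at h3
    rw [h1, div_pow, pow_succ (2 : ℝ) (2 * m), mul_pow, h16, div_mul_eq_mul_div,
      div_le_one (by positivity)]
    push_cast at h3 ⊢
    nlinarith [sq_nonneg (((2 * m + 1).choose m : ℕ) : ℝ)]

theorem elo_half {k : ℕ} (hk : 1 ≤ k) : elo k ≤ 1 / 2 := by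
  by_cases h4 : 4 ≤ k
  · have h1 := Elo_sq k
    have h2 : (4 : ℝ) ≤ k := by exact_mod_cast h4
    have h3 := elo_nonneg k
    nlinarith [sq_nonneg (elo k), mul_le_mul_of_nonneg_left h2 (sq_nonneg (elo k))]
  · have : k = 1 ∨ k = 2 ∨ k = 3 := by omega
    rcases this with rfl | rfl | rfl <;> norm_num [elo, Nat.choose]

theorem elo_sq (k : ℕ) : elo k ^ 2 * k ≤ 1 := Elo_sq k

end Vale.Agent.P160
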