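import Vale.Agent.P160.Base

/-! Linear algebra. -/

namespace Vale.Agent.P160

open Finset

theorem few_rows {n : ℕ} (A : Matrix (Fin n) (Fin n) ℝ) (c : ℕ) (W : Submodule ℝ (Fin n → ℝ))
    (hW : Module.finrank ℝ W ≤ c) :
    ∃ Q : Finset (Fin n), Q.card ≤ c ∧
      ∀ x ∈ W, (∀ i ∈ Q, ∑ j, A i j * x j = 0) → ∀ i, ∑ j, A i j * x j = 0 := by
  classical
  induction c generalizing W with
  | zero =>
    refine ⟨∅, by simp, fun x hx _ i => ?_⟩
    have hW0 : W = ⊥ := Submodule.finrank_eq_zero.1 (Nat.le_zero.1 hW)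
    rw [hW0, Submodule.mem_bot] at hx
    simp [hx]
  | succ c ih =>
    by_cases h : ∀ x ∈ W, ∀ i, ∑ j, A i j * x j = 0
    · exact ⟨∅, by simp, fun x hx _ i => h x hx i⟩
    · push Not at h
      obtain ⟨x0, hx0, i0, hi0⟩ := h
      obtain ⟨φ, hφ⟩ : ∃ φ : (Fin n → ℝ) →ₗ[ℝ] ℝ, ∀ x, φ x = ∑ j, A i0 j * x j :=
        ⟨(LinearMap.proj i0).comp A.mulVecLin, fun x => by
          simp [Matrix.mulVec, dotProduct]⟩
      have hlt : W ⊓ LinearMap.ker φ < W := by
        refine lt_of_le_of_ne inf_le_left fun he => hi0 ?_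
        have : x0 ∈ W ⊓ LinearMap.ker φ := by rw [he]; exact hx0
        rw [← hφ]
        exact this.2
      have hr := Submodule.finrank_lt_finrank_of_lt hlt
      obtain ⟨Q, hQ, hQ'⟩ := ih (W ⊓ LinearMap.ker φ) (by omega)
      refine ⟨insert i0 Q, (card_insert_le _ _).trans (by omega), fun x hx hxQ => ?_⟩
      refine hQ' x ⟨hx, ?_⟩ fun i hi => hxQ i (mem_insert_of_mem hi)
      show φ x = 0
      rw [hφ]
      exact hxQ i0 (mem_insert_self _ _)

theorem gauss {n : ℕ} (r : ℕ) (W : Submodule ℝ (Fin n → ℝ)) (hW : r ≤ Module.finrank ℝ W) :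
    ∃ I : Finset (Fin n), I.card = r ∧
      ∀ a ∈ I, ∃ x ∈ W, ∀ b ∈ I, x b = if b = a then 1 else 0 := by
  classical
  induction r with
  | zero => exact ⟨∅, rfl, by simp⟩
  | succ r ih =>
    obtain ⟨I, hI, hx⟩ := ih (by omega)
    obtain ⟨ρ, hρ⟩ : ∃ ρ : W →ₗ[ℝ] (I → ℝ), ∀ (w : W) (b : I), ρ w b = (w : Fin n → ℝ) b :=
      ⟨(LinearMap.funLeft ℝ ℝ (Subtype.val : I → Fin n)).comp W.subtype, fun _ _ => rfl⟩
    have hker : LinearMap.ker ρ ≠ ⊥ := by
      refine LinearMap.ker_ne_bot_of_finrank_lt ?_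
      rw [Module.finrank_fintype_fun_eq_card, Fintype.card_coe, hI]
      omega
    obtain ⟨w, hw, hw0⟩ := Submodule.exists_mem_ne_zero_of_ne_bot hker
    have hwI : ∀ b ∈ I, (w : Fin n → ℝ) b = 0 := by
      intro b hb
      have h1 : ρ w = 0 := hw
      have := hρ w ⟨b, hb⟩
      rw [h1] at this
      exact this.symm
    obtain ⟨a, ha⟩ : ∃ a, (w : Fin n → ℝ) a ≠ 0 := by
      by_contra hc
      push Not at hc
      exact hw0 (Subtype.ext (funext hc))
    have haI : a ∉ I := fun h => ha (hwI a h)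
    refine ⟨insert a I, by rw [card_insert_of_notMem haI, hI], fun a' ha' => ?_⟩
    rcases mem_insert.1 ha' with rfl | ha'I
    · refine ⟨((w : Fin n → ℝ) a')⁻¹ • (w : Fin n → ℝ), W.smul_mem _ w.2, fun b hb => ?_⟩
      rcases mem_insert.1 hb with rfl | hbI
      · simp [ha]
      · have hne : b ≠ a' := fun h => haI (h ▸ hbI)
        simp [hne, hwI b hbI]
    · obtain ⟨x, hxW, hxI⟩ := hx a' ha'I
      refine ⟨x - (x a / (w : Fin n → ℝ) a) • (w : Fin n → ℝ),
        W.sub_mem hxW (W.smul_mem _ w.2), fun b hb => ?_⟩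
      rcases mem_insert.1 hb with rfl | hbI
      · have hne : b ≠ a' := fun h => haI (h ▸ ha'I)
        simp [hne, ha]
      · simp [hwI b hbI, hxI b hbI]

/-- vectors supported in `S` -/
def suppIn {n : ℕ} (S : Finset (Fin n)) : Submodule ℝ (Fin n → ℝ) where
  carrier := {x | ∀ j, j ∉ S → x j = 0}
  add_mem' := fun {a b} ha hb j hj => by simp [ha j hj, hb j hj]
  zero_mem' := fun _ _ => rfl
  smul_mem' := fun c x hx j hj => by simp [hx j hj]

theorem finrank_suppIn {n : ℕ} (S : Finset (Fin n)) : Module.finrank ℝ (suppIn S) ≤ S.card := by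
  obtain ⟨ρ, hρ⟩ : ∃ ρ : suppIn S →ₗ[ℝ] (S → ℝ),
      ∀ (w : suppIn S) (b : S), ρ w b = (w : Fin n → ℝ) b :=
    ⟨(LinearMap.funLeft ℝ ℝ (Subtype.val : S → Fin n)).comp (suppIn S).subtype, fun _ _ => rfl⟩
  have hinj : Function.Injective ρ := by
    rw [injective_iff_map_eq_zero]
    intro w hw
    refine Subtype.ext (funext fun j => ?_)
    by_cases hj : j ∈ S
    · have := hρ w ⟨j, hj⟩
      rw [hw] at this
      exact this.symm
    · exact w.2 j hj
  have := LinearMap.finrank_le_finrank_of_injective hinj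
  rwa [Module.finrank_fintype_fun_eq_card, Fintype.card_coe] at this

/-- vectors constant on the fibres of `f` -/
def constOn {n m : ℕ} (f : Fin n → Fin m) : Submodule ℝ (Fin n → ℝ) where
  carrier := {x | ∀ i j, f i = f j → x i = x j}
  add_mem' := fun {a b} ha hb i j h => by simp [ha i j h, hb i j h]
  zero_mem' := fun _ _ _ => rfl
  smul_mem' := fun c x hx i j h => by simp [hx i j h]

theorem finrank_constOn {n m : ℕ} (f : Fin n → Fin m) : Module.finrank ℝ (constOn f) ≤ m := by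
  classical
  have hle : constOn f ≤ LinearMap.range (LinearMap.funLeft ℝ ℝ f) := by
    intro x hx
    refine ⟨fun k => if h : ∃ i, f i = k then x h.choose else 0, funext fun i => ?_⟩
    have h : ∃ j, f j = f i := ⟨i, rfl⟩
    rw [LinearMap.funLeft_apply, dif_pos h]
    exact hx _ _ h.choose_spec
  calc Module.finrank ℝ (constOn f) ≤ Module.finrank ℝ (LinearMap.range (LinearMap.funLeft ℝ ℝ f)) :=
        Submodule.finrank_mono hle
    _ ≤ Module.finrank ℝ (Fin m → ℝ) := LinearMap.finrank_range_le _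
    _ = m := by simp

theorem exists_constOn {n m : ℕ} (v : Fin n → ℝ) (hv : (univ.image v).card ≤ m) :
    ∃ f : Fin n → Fin m, v ∈ constOn f := by
  refine ⟨fun i => Fin.castLE hv ((univ.image v).equivFin ⟨v i, mem_image_of_mem v (mem_univ i)⟩),
    fun i j h => ?_⟩
  have h1 := (univ.image v).equivFin.injective (Fin.castLE_injective hv h)
  exact congrArg Subtype.val h1

end Vale.Agent.P160
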