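import Vale.Agent.P160.Key
import Vale.Agent.P160.Lin

/-! Union bound over kernel vectors with few values. -/

namespace Vale.Agent.P160

open Finset

open Classical in
theorem few_bound (n m t : ℕ) :
    prob n (fun A => ∃ v : Fin n → ℝ, (∀ i, ∑ j, A i j * v j = 0) ∧
      t + m ≤ (univ.filter fun j => v j ≠ 0).card ∧ (univ.image v).card ≤ m) ≤
      (m : ℝ) ^ n * 4 ^ n * elo t ^ (n - t - m) := by
  let s : Finset ((Fin n → Fin m) × Finset (Fin n) × Finset (Fin n)) :=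
    univ.filter fun a => a.2.1.card = t ∧ a.2.2.card ≤ m ∧ Disjoint a.2.2 a.2.1
  let E : (Fin n → Fin m) × Finset (Fin n) × Finset (Fin n) → Matrix (Fin n) (Fin n) ℝ → Prop :=
    fun a A => (∃ v ∈ (constOn a.1 : Set (Fin n → ℝ)), (∀ j ∈ a.2.1, v j ≠ 0) ∧
      ∀ i, ∑ j, A i j * v j = 0) ∧ ∀ x ∈ (constOn a.1 : Set (Fin n → ℝ)),
        (∀ i ∈ a.2.2, ∑ j, A i j * x j = 0) → ∀ i, ∑ j, A i j * x j = 0
  have h1 : elo t ≤ 1 := by
    unfold elo
    rw [div_le_one (by positivity)]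
    exact_mod_cast Nat.choose_le_two_pow t (t / 2)
  have h2 : ∀ a ∈ s, prob n (E a) ≤ elo t ^ (n - t - m) := by
    rintro ⟨f, T, Q⟩ ha
    obtain ⟨a1, a2, a3⟩ := (mem_filter.1 ha).2
    dsimp only at a1 a2 a3
    have a4 := key (constOn f : Set (Fin n → ℝ)) (T ∪ Q)ᶜ T Q
      (disjoint_left.2 fun x hx hx' => mem_compl.1 hx (mem_union_left _ hx'))
      (disjoint_left.2 fun x hx hx' => mem_compl.1 hx (mem_union_right _ hx')) (Or.inl a3)
    rw [a1] at a4
    refine a4.trans (pow_le_pow_of_le_one (elo_nonneg t) h1 ?_)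
    have a5 := card_union_le T Q
    rw [card_compl, Fintype.card_fin]
    omega
  refine le_trans (prob_mono (F := fun A => ∃ a ∈ s, E a A) ?_) ((prob_exists s E).trans ?_)
  · rintro ω ⟨v, a1, a2, a3⟩
    obtain ⟨f, hf⟩ := exists_constOn v a3
    obtain ⟨Q, b1, b2⟩ := few_rows (mat ω) m (constOn f) (finrank_constOn f)
    have b3 := le_card_sdiff Q (univ.filter fun j => v j ≠ 0)
    obtain ⟨T, b4, b5⟩ := exists_subset_card_eq
      (show t ≤ ((univ.filter fun j => v j ≠ 0) \ Q).card by omega)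
    refine ⟨(f, T, Q), mem_filter.2 ⟨mem_univ _, b5, b1,
      disjoint_left.2 fun x hx hx' => (mem_sdiff.1 (b4 hx')).2 hx⟩,
      ⟨v, hf, fun j hj => (mem_filter.1 (mem_sdiff.1 (b4 hj)).1).2, a1⟩, b2⟩
  · refine (sum_le_sum h2).trans ?_
    rw [sum_const, nsmul_eq_mul]
    refine mul_le_mul_of_nonneg_right ?_ (pow_nonneg (elo_nonneg t) _)
    have b1 : s.card ≤ m ^ n * 4 ^ n := by
      refine (card_le_univ s).trans (le_of_eq ?_)
      simp only [Fintype.card_prod, Fintype.card_fun, Fintype.card_fin, Fintype.card_finset]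
      rw [← mul_pow, show (2 * 2 : ℕ) = 4 from rfl]
    exact_mod_cast b1

end Vale.Agent.P160
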