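import Vale.Agent.P160.Key
import Vale.Agent.P160.Lin

/-! Union bound over kernel vectors with few values on a large set. -/

namespace Vale.Agent.P160

open Finset

/-- the partition attached to a labelling of `G` -/
noncomputable def few2f {n m : ℕ} (G : Finset (Fin n)) (φ : G → Fin m) :
    Fin n → Fin (Fintype.card ({j // j ∉ G} ⊕ Fin m)) := fun j =>
  Fintype.equivFin _ (if h : j ∈ G then Sum.inr (φ ⟨j, h⟩) else Sum.inl ⟨j, h⟩)

theorem few2_card {n m : ℕ} (G : Finset (Fin n)) :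
    Fintype.card ({j // j ∉ G} ⊕ Fin m) = n - G.card + m := by
  simp [Fintype.card_subtype_compl]

theorem few2_exists {n m : ℕ} (G : Finset (Fin n)) (v : Fin n → ℝ) (h : (G.image v).card ≤ m) :
    ∃ φ : G → Fin m, v ∈ constOn (few2f G φ) := by
  refine ⟨fun j => Fin.castLE h ((G.image v).equivFin ⟨v j, mem_image_of_mem v j.2⟩), ?_⟩
  intro i j hij
  have h2 := (Fintype.equivFin _).injective hij
  by_cases hi : i ∈ G <;> by_cases hj : j ∈ G <;> simp only [hi, hj, dif_pos, dif_neg,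
    not_false_eq_true, reduceCtorEq, Sum.inr.injEq, Sum.inl.injEq, Subtype.mk.injEq] at h2
  · exact congrArg Subtype.val ((G.image v).equivFin.injective (Fin.castLE_injective h h2))
  · rw [h2]

open Classical in
theorem few2_bound (n g m t : ℕ) :
    prob n (fun A => ∃ v : Fin n → ℝ, (∀ i, ∑ j, A i j * v j = 0) ∧
      t + (n - g + m) ≤ (univ.filter fun j => v j ≠ 0).card ∧
      ∃ G : Finset (Fin n), G.card = g ∧ (G.image v).card ≤ m) ≤
      (m : ℝ) ^ g * 8 ^ n * elo t ^ (g - m - t) := by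
  let s : Finset (Finset (Fin n) × Finset (Fin n) × Finset (Fin n)) :=
    univ.filter fun a => a.1.card = g ∧ a.2.1.card = t ∧ a.2.2.card ≤ n - g + m ∧
      Disjoint a.2.2 a.2.1
  let E : (a : Finset (Fin n) × Finset (Fin n) × Finset (Fin n)) → (a.1 → Fin m) →
      Matrix (Fin n) (Fin n) ℝ → Prop :=
    fun a φ A => (∃ v ∈ (constOn (few2f a.1 φ) : Set (Fin n → ℝ)), (∀ j ∈ a.2.1, v j ≠ 0) ∧
      ∀ i, ∑ j, A i j * v j = 0) ∧ ∀ x ∈ (constOn (few2f a.1 φ) : Set (Fin n → ℝ)),
        (∀ i ∈ a.2.2, ∑ j, A i j * x j = 0) → ∀ i, ∑ j, A i j * x j = 0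
  have h1 : elo t ≤ 1 := by
    unfold elo
    rw [div_le_one (by positivity)]
    exact_mod_cast Nat.choose_le_two_pow t (t / 2)
  have h2 : ∀ a ∈ s, prob n (fun A => ∃ φ ∈ (univ : Finset (a.1 → Fin m)), E a φ A) ≤
      (m : ℝ) ^ g * elo t ^ (g - m - t) := by
    rintro ⟨G, T, Q⟩ ha
    obtain ⟨a0, a1, a2, a3⟩ := (mem_filter.1 ha).2
    dsimp only at a0 a1 a2 a3
    refine (prob_exists _ _).trans ?_
    have hg : g ≤ n := by
      have := card_le_univ G
      rwa [a0, Fintype.card_fin] at this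
    have h3 : ∀ φ ∈ (univ : Finset (G → Fin m)), prob n (E (G, T, Q) φ) ≤ elo t ^ (g - m - t) := by
      intro φ _
      have a4 := key (constOn (few2f G φ) : Set (Fin n → ℝ)) (T ∪ Q)ᶜ T Q
        (disjoint_left.2 fun x hx hx' => mem_compl.1 hx (mem_union_left _ hx'))
        (disjoint_left.2 fun x hx hx' => mem_compl.1 hx (mem_union_right _ hx')) (Or.inl a3)
      rw [a1] at a4
      refine a4.trans (pow_le_pow_of_le_one (elo_nonneg t) h1 ?_)
      have a5 := card_union_le T Q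
      rw [card_compl, Fintype.card_fin]
      omega
    refine (sum_le_sum h3).trans (le_of_eq ?_)
    rw [sum_const, nsmul_eq_mul, card_univ, Fintype.card_fun, Fintype.card_fin, Fintype.card_coe,
      a0, Nat.cast_pow]
  refine le_trans (prob_mono (F := fun A => ∃ a ∈ s, ∃ φ ∈ (univ : Finset (a.1 → Fin m)),
    E a φ A) ?_) ((prob_exists s _).trans ?_)
  · rintro ω ⟨v, a1, a2, G, hG, a3⟩
    obtain ⟨φ, hf⟩ := few2_exists G v a3
    obtain ⟨Q, b1, b2⟩ := few_rows (mat ω) _ (constOn (few2f G φ)) (finrank_constOn _)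
    rw [few2_card, hG] at b1
    have b3 := le_card_sdiff Q (univ.filter fun j => v j ≠ 0)
    obtain ⟨T, b4, b5⟩ := exists_subset_card_eq
      (show t ≤ ((univ.filter fun j => v j ≠ 0) \ Q).card by omega)
    exact ⟨(G, T, Q), mem_filter.2 ⟨mem_univ _, hG, b5, b1,
      disjoint_left.2 fun x hx hx' => (mem_sdiff.1 (b4 hx')).2 hx⟩, φ, mem_univ _,
      ⟨v, hf, fun j hj => (mem_filter.1 (mem_sdiff.1 (b4 hj)).1).2, a1⟩, b2⟩
  · refine (sum_le_sum h2).trans ?_
    rw [sum_const, nsmul_eq_mul, mul_comm ((m : ℝ) ^ g) (8 ^ n), mul_assoc]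
    refine mul_le_mul_of_nonneg_right ?_ (mul_nonneg (by positivity)
      (pow_nonneg (elo_nonneg t) _))
    have b1 : s.card ≤ 8 ^ n := by
      refine (card_le_univ s).trans (le_of_eq ?_)
      simp only [Fintype.card_prod, Fintype.card_fin, Fintype.card_finset]
      rw [← mul_pow, ← mul_pow, show (2 * (2 * 2) : ℕ) = 8 from rfl]
    exact_mod_cast b1

end Vale.Agent.P160
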