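import Vale.Agent.P160.Block

/-! Kernel vectors determined by few rows. -/

namespace Vale.Agent.P160

open Finset

theorem key_row {n : ℕ} (W : Set (Fin n → ℝ)) (R T Q : Finset (Fin n))
    (hRQ : Disjoint R Q) (hQ : Disjoint Q T ∨ ∀ x ∈ W, ∀ j ∈ R, x j = 0)
    (ω ω' : Sym2 (Fin n) → Bool)
    (h : ∀ e, (¬ ∃ i ∈ R, ∃ j ∈ T, e = s(i, j)) → ω e = ω' e) {x : Fin n → ℝ} (hx : x ∈ W)
    {i : Fin n} (hi : i ∈ Q) : ∑ j, mat ω i j * x j = ∑ j, mat ω' i j * x j := by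
  refine Finset.sum_congr rfl fun j _ => ?_
  by_cases hb : ∃ a ∈ R, ∃ b ∈ T, s(i, j) = s(a, b)
  · obtain ⟨a, ha, b, hb, e⟩ := hb
    rcases Sym2.eq_iff.1 e with ⟨e1, _⟩ | ⟨e1, e2⟩
    · exact absurd hi (Finset.disjoint_left.1 hRQ (e1 ▸ ha))
    · rcases hQ with hQ | hQ
      · exact absurd (e1 ▸ hb) (Finset.disjoint_left.1 hQ hi)
      · rw [hQ x hx j (e2 ▸ ha), mul_zero, mul_zero]
  · unfold mat
    rw [h _ hb]

theorem key {n : ℕ} (W : Set (Fin n → ℝ)) (R T Q : Finset (Fin n)) (hRT : Disjoint R T)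
    (hRQ : Disjoint R Q) (hQ : Disjoint Q T ∨ ∀ x ∈ W, ∀ j ∈ R, x j = 0) :
    prob n (fun A => (∃ v ∈ W, (∀ j ∈ T, v j ≠ 0) ∧ ∀ i, ∑ j, A i j * v j = 0) ∧
      ∀ x ∈ W, (∀ i ∈ Q, ∑ j, A i j * x j = 0) → ∀ i, ∑ j, A i j * x j = 0) ≤
      elo T.card ^ R.card := by
  classical
  let Pr : (Sym2 (Fin n) → Bool) → (Fin n → ℝ) → Prop := fun ω x =>
    x ∈ W ∧ (∀ j ∈ T, x j ≠ 0) ∧ ∀ i ∈ Q, ∑ j, mat ω i j * x j = 0
  have hPr : ∀ ω ω' : Sym2 (Fin n) → Bool,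
      (∀ e, (¬ ∃ i ∈ R, ∃ j ∈ T, e = s(i, j)) → ω e = ω' e) → Pr ω = Pr ω' := by
    intro ω ω' h
    funext x
    refine propext ⟨fun hx => ⟨hx.1, hx.2.1, fun i hi => ?_⟩,
      fun hx => ⟨hx.1, hx.2.1, fun i hi => ?_⟩⟩
    · rw [← key_row W R T Q hRQ hQ ω ω' h hx.1 hi]; exact hx.2.2 i hi
    · rw [key_row W R T Q hRQ hQ ω ω' h hx.1 hi]; exact hx.2.2 i hi
  have hb := block R T hRT (fun ω => Classical.epsilon (Pr ω))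
    (fun ω ω' h => by rw [hPr ω ω' h])
  have hc : (0 : ℝ) < (Fintype.card (Sym2 (Fin n) → Bool) : ℝ) :=
    Nat.cast_pos.2 Fintype.card_pos
  unfold prob
  rw [div_le_iff₀ hc]
  refine le_trans (Nat.cast_le.2 (card_le_card fun ω hω => ?_)) hb
  simp only [mem_filter, mem_univ, true_and] at hω ⊢
  obtain ⟨⟨v, hvW, hvT, hv⟩, hall⟩ := hω
  have hs : Pr ω (Classical.epsilon (Pr ω)) :=
    Classical.epsilon_spec ⟨v, hvW, hvT, fun i _ => hv i⟩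
  exact ⟨hs.2.1, fun i _ => hall _ hs.1 hs.2.2 i⟩

end Vale.Agent.P160
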