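import Vale.Agent.P160.Base

/-! Two equal rows. -/

namespace Vale.Agent.P160

open Finset

theorem lower {n : ℕ} (a b : Fin n) (hab : a ≠ b) :
    (1 / 2 : ℝ) ^ n ≤ prob n (fun A => ∀ i, A i a = A i b) := by
  classical
  let g : (Sym2 (Fin n) → Bool) → Fin n → Bool := fun ω j =>
    if j = a ∨ j = b then ω s(a, a) else ω s(a, j)
  let T : (Sym2 (Fin n) → Bool) → Sym2 (Fin n) → Bool := fun ω e =>
    if h : b ∈ e then g ω (Sym2.Mem.other h) else ω e
  have T1 : ∀ ω j, T ω s(j, b) = g ω j := fun ω j => by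
    have h : b ∈ s(j, b) := Sym2.mem_mk_right _ _
    have h2 := Sym2.other_spec h
    simp only [T, dif_pos h]
    congr 1
    exact Sym2.congr_right.1 (h2.trans Sym2.eq_swap)
  have T2 : ∀ ω e, b ∉ e → T ω e = ω e := fun ω e h => by simp only [T, dif_neg h]
  have T3 : ∀ ω i, mat (T ω) i a = mat (T ω) i b := fun ω i => by
    unfold mat
    rw [T1]
    by_cases hb : i = b
    · subst hb
      rw [Sym2.eq_swap, T1]
      simp [g]
    · rw [T2 _ _ (by simp [Ne.symm hb, Ne.symm hab])]
      by_cases ha : i = a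
      · subst ha; simp [g]
      · simp only [g, ha, hb, or_self, if_false]
        rw [Sym2.eq_swap]
  have key : Fintype.card (Sym2 (Fin n) → Bool) ≤
      ((univ.filter fun ω : Sym2 (Fin n) → Bool => ∀ i, mat ω i a = mat ω i b) ×ˢ
        (univ : Finset (Fin n → Bool))).card := by
    rw [← card_univ]
    refine card_le_card_of_injOn (fun ω => (T ω, fun j => ω s(j, b))) (fun ω _ => ?_) ?_
    · simp [T3]
    · intro ω _ ω' _ h
      simp only [Prod.mk.injEq] at h
      funext e
      by_cases he : b ∈ e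
      · rw [← Sym2.other_spec he, Sym2.eq_swap]
        exact congrFun h.2 _
      · rw [← T2 ω e he, ← T2 ω' e he, h.1]
  rw [card_product, card_univ, Fintype.card_fun (α := Fin n), Fintype.card_bool,
    Fintype.card_fin] at key
  unfold prob
  have hpos : (0 : ℝ) < Fintype.card (Sym2 (Fin n) → Bool) := by exact_mod_cast Fintype.card_pos
  rw [le_div_iff₀ hpos, one_div_pow, div_mul_eq_mul_div, one_mul, div_le_iff₀ (by positivity)]
  convert (Nat.cast_le (α := ℝ)).2 key using 1
  push_cast
  congr

end Vale.Agent.P160
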