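import Vale.Agent.P160.Sparse
import Vale.Agent.P160.Few2
import Vale.Agent.P160.Asym
import Vale.Agent.P160.Asym2
import Vale.Agent.P160.Lower

/-! Assembly. -/

namespace Vale.Agent.P160

open Finset Filter Topology

open Classical in
theorem upper0 {ε δ : ℝ} (hε : 0 < ε) (hε1 : ε < 1 / 2) (hδ : 0 < δ) : ∀ᶠ n : ℕ in atTop,
    prob n (fun A => ∃ v : Fin n → ℝ, v ≠ 0 ∧ (∀ i, ∑ j, A i j * v j = 0) ∧
      ∃ G : Finset (Fin n), ε * n ≤ G.card ∧ ((G.image v).card : ℝ) ≤ (n : ℝ) ^ (1 / 2 - ε)) ≤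
      (1 / 2 + δ) ^ n := by
  obtain ⟨γ, hγ, hs⟩ := asym_small (half_pos hδ)
  obtain ⟨θ, hθ, hb⟩ := asym_big hγ (half_pos hε) (by linarith)
  have hfin : ∀ᶠ n : ℕ in atTop, (1 / 2 + δ / 2) ^ n + 3 * (1 / 4 : ℝ) ^ n ≤ (1 / 2 + δ) ^ n := by
    have h1 : Tendsto (fun n : ℕ => ((1 / 2 + δ / 2) / (1 / 2 + δ)) ^ n +
        3 * ((1 / 4) / (1 / 2 + δ)) ^ n) atTop (𝓝 (0 + 3 * 0)) := by
      refine (tendsto_pow_atTop_nhds_zero_of_lt_one (by positivity) ?_).add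
        ((tendsto_pow_atTop_nhds_zero_of_lt_one (by positivity) ?_).const_mul 3)
      · rw [div_lt_one (by positivity)]; linarith
      · rw [div_lt_one (by positivity)]; linarith
    filter_upwards [h1.eventually (ge_mem_nhds (by norm_num : (0 : ℝ) + 3 * 0 < 1))] with n hn
    rw [div_pow, div_pow, ← mul_div_assoc, ← add_div, div_le_one (by positivity)] at hn
    exact hn
  filter_upwards [hb, asym_few2 hε hε1, hfin] with n hb hf hfin
  have a1 := (sparse_small n ⌊γ * n⌋₊).trans (hs n)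
  have a2 := (sparse_big n ⌊γ * n⌋₊ ⌊(1 - ε / 2) * n⌋₊ ⌊ε / 2 / 2 * n⌋₊ hθ hb.1).trans hb.2
  have a3 := (few2_bound n ⌈ε * n⌉₊ ⌊(n : ℝ) ^ (1 / 2 - ε)⌋₊ ⌊ε ^ 2 / 4 * n⌋₊).trans hf.2
  refine le_trans (le_trans (prob_mono fun ω h => ?_) ((prob_or _ _).trans
    (add_le_add a1 ((prob_or _ _).trans (add_le_add a2 a3))))) (by linarith)
  obtain ⟨v, hv, hA, G, hG, hm⟩ := h
  by_cases c1 : (univ.filter fun j => v j ≠ 0).card ≤ ⌊γ * n⌋₊
  · exact Or.inl ⟨v, hv, hA, c1⟩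
  by_cases c2 : (univ.filter fun j => v j ≠ 0).card ≤ ⌊(1 - ε / 2) * n⌋₊
  · exact Or.inr (Or.inl ⟨v, hA, not_le.1 c1, c2⟩)
  refine Or.inr (Or.inr ⟨v, hA, (Nat.le_floor hf.1).trans (not_le.1 c2).le, ?_⟩)
  obtain ⟨G', hG', hc⟩ := exists_subset_card_eq (Nat.ceil_le.2 hG)
  exact ⟨G', hc, (card_le_card (image_subset_image hG')).trans (Nat.le_floor hm)⟩

open Classical in
theorem lower0 {ε : ℝ} (hε1 : ε < 1 / 2) : ∀ᶠ n : ℕ in atTop,
    (1 / 2 : ℝ) ^ n ≤ prob n (fun A => ∃ v : Fin n → ℝ, v ≠ 0 ∧ (∀ i, ∑ j, A i j * v j = 0) ∧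
      ∃ G : Finset (Fin n), ε * n ≤ G.card ∧ ((G.image v).card : ℝ) ≤ (n : ℝ) ^ (1 / 2 - ε)) := by
  filter_upwards [eventually_ge_atTop 4] with n hn
  let a : Fin n := ⟨0, by omega⟩
  let b : Fin n := ⟨1, by omega⟩
  have hab : a ≠ b := by simp [a, b]
  refine (lower a b hab).trans (prob_mono fun ω h => ?_)
  refine ⟨Pi.single a 1 - Pi.single b 1, fun h0 => ?_, fun i => ?_, ({a, b} : Finset _)ᶜ, ?_, ?_⟩
  · have := congrFun h0 a
    simp [hab] at this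
  · simp [mul_sub, sum_sub_distrib, Pi.single_apply, h i]
  · rw [card_compl, card_pair hab, Fintype.card_fin, Nat.cast_sub (by omega)]
    have : (4 : ℝ) ≤ n := by exact_mod_cast hn
    push_cast
    nlinarith
  · refine le_trans ?_ (Real.one_le_rpow (by exact_mod_cast (by omega : 1 ≤ n)) (by linarith))
    refine Nat.cast_le_one.2 (le_trans (card_le_card (t := {0}) fun x hx => ?_) (by simp))
    obtain ⟨j, hj, rfl⟩ := mem_image.1 hx
    simp only [mem_compl, mem_insert, mem_singleton, not_or] at hj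
    simp [hj.1, hj.2]

theorem rate {P : ℕ → ℝ} (h1 : ∀ᶠ n : ℕ in atTop, (1 / 2 : ℝ) ^ n ≤ P n)
    (h2 : ∀ δ : ℝ, 0 < δ → ∀ᶠ n : ℕ in atTop, P n ≤ (1 / 2 + δ) ^ n) :
    Tendsto (fun n : ℕ => P n ^ (1 / (n : ℝ))) atTop (𝓝 (1 / 2)) := by
  rw [tendsto_order]
  refine ⟨fun c hc => ?_, fun c hc => ?_⟩
  · filter_upwards [h1, eventually_ge_atTop 1] with n hn h
    refine hc.trans_le ?_
    have := Real.rpow_le_rpow (by positivity) hn (by positivity : (0 : ℝ) ≤ 1 / (n : ℝ))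
    rwa [one_div (n : ℝ), Real.pow_rpow_inv_natCast (by norm_num) (by omega), ← one_div (n : ℝ)]
      at this
  · filter_upwards [h1, h2 ((c - 1 / 2) / 2) (by linarith), eventually_ge_atTop 1] with n hn hn' h
    have := Real.rpow_le_rpow (le_trans (by positivity) hn) hn'
      (by positivity : (0 : ℝ) ≤ 1 / (n : ℝ))
    rw [one_div (n : ℝ), Real.pow_rpow_inv_natCast (by linarith) (by omega), ← one_div (n : ℝ)]
      at this
    linarith

end Vale.Agent.P160
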