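import Vale.Agent.P160.Key
import Vale.Agent.P160.Lin
import Vale.Agent.P160.Corank

/-! Union bound over sparse kernel vectors. -/

namespace Vale.Agent.P160

open Finset

/-- The kernel meets the vectors with support `S` and is cut out by the rows in `Q`. -/
def spEv {n : ℕ} (S Q : Finset (Fin n)) (A : Matrix (Fin n) (Fin n) ℝ) : Prop :=
  (∃ v ∈ (suppIn S : Set (Fin n → ℝ)), (∀ j ∈ S, v j ≠ 0) ∧ ∀ i, ∑ j, A i j * v j = 0) ∧
    ∀ x ∈ (suppIn S : Set (Fin n → ℝ)), (∀ i ∈ Q, ∑ j, A i j * x j = 0) →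
      ∀ i, ∑ j, A i j * x j = 0

theorem sp_key {n : ℕ} (S Q : Finset (Fin n)) {θ : ℝ} {m : ℕ} (h : elo S.card ≤ θ) (h1 : θ ≤ 1)
    (hm : m + (S ∪ Q).card ≤ n ∨ m = 0) : prob n (spEv S Q) ≤ θ ^ m := by
  refine (key (suppIn S : Set (Fin n → ℝ)) (S ∪ Q)ᶜ S Q (disjoint_compl_left.mono_right subset_union_left)
    (disjoint_compl_left.mono_right subset_union_right) (Or.inr fun x hx j hj => hx j fun h =>
      mem_compl.mp hj (mem_union_left _ h))).trans ((pow_le_pow_left₀ (elo_nonneg _) h _).trans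
      (pow_le_pow_of_le_one ((elo_nonneg _).trans h) h1 ?_))
  rw [card_compl, Fintype.card_fin]
  omega

theorem sp_union {n : ℕ} {ι : Type*} (s : Finset ι) (p : ι → Prop)
    (E : ι → Matrix (Fin n) (Fin n) ℝ → Prop) {b : ℝ} (hb : 0 ≤ b)
    (h : ∀ a ∈ s, p a → prob n (E a) ≤ b) :
    prob n (fun A => ∃ a ∈ s, p a ∧ E a A) ≤ s.card * b := by
  refine (prob_exists s fun a A => p a ∧ E a A).trans ((sum_le_card_nsmul _ _ b fun a ha =>
    ?_).trans (nsmul_eq_mul _ _).le)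
  by_cases hp : p a
  · exact (prob_mono fun _ h => h.2).trans (h a ha hp)
  · simpa [prob, hp] using hb

/-- Vectors supported in `S` and killed by the rows in `S`. -/
def spW {n : ℕ} (A : Matrix (Fin n) (Fin n) ℝ) (S : Finset (Fin n)) : Submodule ℝ (Fin n → ℝ) where
  carrier := {x | (∀ j, j ∉ S → x j = 0) ∧ ∀ i ∈ S, ∑ j, A i j * x j = 0}
  add_mem' := fun {a b} ha hb => ⟨fun j hj => by simp [ha.1 j hj, hb.1 j hj], fun i hi => by
    simp [mul_add, sum_add_distrib, ha.2 i hi, hb.2 i hi]⟩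
  zero_mem' := ⟨fun _ _ => rfl, fun _ _ => by simp⟩
  smul_mem' := fun c x hx => ⟨fun j hj => by simp [hx.1 j hj], fun i hi => by
    simp [mul_left_comm _ c, ← mul_sum, hx.2 i hi]⟩

open Classical in
theorem sparse_small (n g : ℕ) :
    prob n (fun A => ∃ v : Fin n → ℝ, v ≠ 0 ∧ (∀ i, ∑ j, A i j * v j = 0) ∧
      (univ.filter fun j => v j ≠ 0).card ≤ g) ≤
      (∑ j ∈ range (g + 1), (n.choose j : ℝ)) ^ 2 * (1 / 2) ^ (n - 2 * g) := by
  set P := (range (g + 1)).biUnion fun j => powersetCard j (univ : Finset (Fin n)) with hP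
  have mem : ∀ S, S ∈ P ↔ S.card ≤ g := fun S => by simp [hP]
  have hc : (P.card : ℝ) ≤ ∑ j ∈ range (g + 1), (n.choose j : ℝ) := by
    have : P.card ≤ ∑ j ∈ range (g + 1), n.choose j := card_biUnion_le.trans (by simp)
    exact_mod_cast this
  have e := sp_union (P ×ˢ P) (fun a => a.1.Nonempty) (fun a => spEv a.1 a.2)
    (b := (1 / 2) ^ (n - 2 * g)) (by positivity)
    fun a ha hp => sp_key _ _ (elo_half hp.card_pos) (by norm_num) (by
      have h1 := (mem _).mp (mem_product.mp ha).1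
      have h2 := (mem _).mp (mem_product.mp ha).2
      have := card_union_le a.1 a.2
      omega)
  refine le_trans (prob_mono ?_) (e.trans ?_)
  · rintro ω ⟨v, h0, hv, hg⟩
    obtain ⟨Q, hQ, h⟩ := few_rows (mat ω) g _ ((finrank_suppIn _).trans hg)
    obtain ⟨j, hj⟩ := Function.ne_iff.mp h0
    exact ⟨(_, Q), mem_product.mpr ⟨(mem _).mpr hg, (mem _).mpr hQ⟩, ⟨j, by simpa using hj⟩,
      ⟨v, fun j hj => by simpa using hj, fun j hj => by simpa using hj, hv⟩, h⟩
  · rw [card_product, Nat.cast_mul, ← sq]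
    gcongr

open Classical in
theorem sparse_big (n g s r : ℕ) {θ : ℝ} (h1 : θ ≤ 1) (hθ : ∀ k, g < k → elo k ≤ θ) :
    prob n (fun A => ∃ v : Fin n → ℝ, (∀ i, ∑ j, A i j * v j = 0) ∧
      g < (univ.filter fun j => v j ≠ 0).card ∧ (univ.filter fun j => v j ≠ 0).card ≤ s) ≤
      4 ^ n * θ ^ (n - s - r) + 4 ^ n * (1 / 2) ^ (r + 1).choose 2 := by
  have h0 : 0 ≤ θ := (elo_nonneg _).trans (hθ (g + 1) (by omega))
  have hc : ((univ : Finset (Finset (Fin n) × Finset (Fin n))).card : ℝ) = 4 ^ n := by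
    rw [card_univ, Fintype.card_prod, Fintype.card_finset, Fintype.card_fin, ← mul_pow]
    simp
  have e1 := sp_union (b := θ ^ (n - s - r)) univ (fun a : Finset (Fin n) × Finset (Fin n) =>
      g < a.1.card ∧ a.1.card ≤ s ∧ a.2.card ≤ r) (fun a => spEv a.1 (a.1 ∪ a.2)) (by positivity)
      fun a _ hp => sp_key _ _ (hθ _ hp.1) h1 (by
        have := card_union_le a.1 a.2
        rw [← union_assoc, union_self]
        omega)
  have e2 := sp_union (b := (1 / 2) ^ (r + 1 + 1).choose 2) univ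
    (fun a : Finset (Fin n) × Finset (Fin n) => a.2.card = r + 1) _ (by positivity)
      fun a _ hp => hp ▸ corank a.1 a.2
  rw [hc] at e1 e2
  refine le_trans (prob_mono ?_) ((prob_or _ _).trans (add_le_add e1 (e2.trans ?_)))
  · rintro ω ⟨v, hv, hg, hs⟩
    rcases le_or_gt (Module.finrank ℝ (spW (mat ω) (univ.filter fun j => v j ≠ 0))) r with h | h
    · obtain ⟨Q, hQ, h⟩ := few_rows (mat ω) r _ h
      exact Or.inl ⟨(_, Q), mem_univ _, ⟨hg, hs, hQ⟩,
        ⟨v, fun j hj => by simpa using hj, fun j hj => by simpa using hj, hv⟩, fun x hx h' =>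
          h x ⟨hx, fun i hi => h' i (mem_union_left _ hi)⟩ fun i hi => h' i (mem_union_right _ hi)⟩
    · obtain ⟨I, hI, h⟩ := gauss (r + 1) _ h
      exact Or.inr ⟨(_, I), mem_univ _, hI, fun a ha =>
        (h a ha).imp fun x hx => ⟨hx.1.1, hx.2, hx.1.2⟩⟩
  · exact mul_le_mul_of_nonneg_left (pow_le_pow_of_le_one (by norm_num) (by norm_num)
      (Nat.choose_le_choose 2 (by omega))) (by positivity)

end Vale.Agent.P160
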